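import Vale.Agent.P034.Full.Main
import Vale.Agent.P034.Full.Classes
import Vale.Agent.P034.Full.Bottom

/-!
P034: Talagrand's conjecture on fractional versus integral expectation thresholds,
`q_f ≤ K q` with the universal constant `K = 2 ^ 80`.
-/

namespace Vale.Agent.Results.P034.TalagrandRounding

open Finset

theorem result : ∀ (X : Type) [Fintype X] [DecidableEq X] [Nonempty X] (F : Set (Finset X)),
    F.Nonempty → (∅ : Finset X) ∉ F → (∀ A ∈ F, ∀ B : Finset X, A ⊆ B → B ∈ F) →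
    ∀ q qf : ℝ,
      q = sSup {p : ℝ | 0 ≤ p ∧ p ≤ 1 ∧ ∃ G : Finset (Finset X),
        (∀ H ∈ F, ∃ S ∈ G, S ⊆ H) ∧ ∑ S ∈ G, p ^ S.card ≤ 1 / 2} →
      qf = sSup {p : ℝ | 0 ≤ p ∧ p ≤ 1 ∧ ∃ g : Finset X → ℝ,
        (∀ S, 0 ≤ g S ∧ g S ≤ 1) ∧ (∀ H ∈ F, 1 ≤ ∑ S ∈ H.powerset, g S) ∧
        ∑ S : Finset X, g S * p ^ S.card ≤ 1 / 2} →
      qf ≤ 2 ^ 80 * q := by
  intro X _ _ _ F _ _ _ q qf hq hqf
  have hqnn : 0 ≤ q := hq ▸ Real.sSup_nonneg fun x hx => hx.1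
  have hC := Vale.Agent.P034.Full.lightCover_of_bottom Vale.Agent.P034.Full.bottom_cover
  rw [hqf]
  refine Real.sSup_le (fun p hp => ?_) (by positivity)
  obtain ⟨hp0, hp1, g, hg, hcov, hcost⟩ := hp
  obtain ⟨G, hG, hGcost⟩ := Vale.Agent.P034.Full.small_of_lightCover hC X F g p hp0 hp1
    (fun S => (hg S).1) hcov hcost
  have hd : (1 : ℝ) ≤ 2 ^ 80 := one_le_pow₀ (by norm_num)
  rw [← div_le_iff₀' (by positivity), hq]
  exact le_csSup ⟨1, fun x hx => hx.2.1⟩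
    ⟨by positivity, (div_le_self hp0 hd).trans hp1, G, hG, hGcost⟩

end Vale.Agent.Results.P034.TalagrandRounding
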